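import Vale.Agent.P280A30.Rows
import Vale.Agent.P299G40.GPsi

/-!
# P280: the row `ISO`
-/

open scoped Manifold ContDiff Topology
open Matrix Filter
open Vale.Agent.P272.K Vale.Agent.P300.Final Vale.Agent.P299G40 Vale.Agent.P299.H223
open Vale.Agent.P280Z.Gp
open Vale.Agent.P009.AV (aff)

namespace Vale.Agent.P280I14

open Vale.Agent.P280A

variable {n N : ℕ} {X : Type} [TopologicalSpace X] [ChartedSpace (Cm n) X]

theorem key {φ : X → PN N} (h : IsProjEmb n φ) (a : Fin (N + 1)) {e : Chart n X} {x : X}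
    (he : At e x) (hx : (φ x).rep a ≠ 0) : ∃ f : Cm n → Cm (N + 1), AnalyticAt ℂ f (e x) ∧
      f (e x) a ≠ 0 ∧ (∀ᶠ z in 𝓝 (e x), (φ (e.symm z)).rep a ≠ 0 ∧
        aff a (φ (e.symm z)) = (f z a)⁻¹ • f z) ∧
      ∀ (ξ : Cm n) (c : ℂ), fderiv ℂ f (e x) ξ = c • f (e x) → ξ = 0 := by
  obtain ⟨f, hf, hev, him⟩ := h.loc e x he
  have h0 : f (e x) a ≠ 0 := by
    obtain ⟨h1, h2⟩ := hev.self_of_nhds
    rw [e.left_inv he.2] at h2
    rw [h2] at hx
    exact (aff_mk h1 a).1.1 hx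
  refine ⟨f, hf, h0, ?_, him⟩
  filter_upwards [hev, ((continuous_apply a).continuousAt.comp hf.continuousAt).eventually_ne h0]
    with z ⟨h1, h2⟩ h3
  rw [h2]
  exact ⟨(aff_mk h1 a).1.2 h3, (aff_mk h1 a).2.trans (funext fun j => div_eq_inv_mul _ _)⟩

theorem lift_emb {φ : X → PN N} (h : IsProjEmb n φ) (a : Fin (N + 1)) :
    IsLift n φ {x | (φ x).rep a ≠ 0} fun x => aff a (φ x) where
  isOpen := isOpen_iff_mem_nhds.2 fun x hx => by
    obtain ⟨f, -, -, hev, -⟩ := key h a (at_chart x) hx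
    filter_upwards [((chartAt (Cm n) x).continuousAt (mem_chart_source _ x)).eventually hev,
      chart_source_mem_nhds (Cm n) x] with y h1 h2
    have h3 := h1.1
    rwa [(chartAt (Cm n) x).left_inv h2] at h3
  holo x hx e he := by
    obtain ⟨f, hf, h0, hev, -⟩ := key h a he hx
    have hc : ContDiffAt ℂ ω f (e x) := hf.contDiffAt
    exact (((contDiffAt_pi.1 hc a).inv h0).smul hc).congr_of_eventuallyEq (hev.mono fun z hz => hz.2)
  ne x hx := aff_ne hx
  eq x hx := mk_aff hx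
  imm x hx e he v c hv := by
    obtain ⟨f, hf, h0, hev, him⟩ := key h a he hx
    have hd := hf.differentiableAt
    have hi : DifferentiableAt ℂ (fun z => (f z a)⁻¹) (e x) := (differentiableAt_pi.1 hd a).inv h0
    have h1 : (fun z => aff a (φ (e.symm z))) =ᶠ[𝓝 (e x)] fun z => (f z a)⁻¹ • f z :=
      hev.mono fun z hz => hz.2
    have h2 := h1.self_of_nhds
    simp only [e.left_inv he.2] at h2
    rw [h1.fderiv_eq, (hi.hasFDerivAt.fun_smul hd.hasFDerivAt).fderiv, h2] at hv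
    simp only [_root_.add_apply, _root_.smul_apply,
      ContinuousLinearMap.smulRight_apply] at hv
    refine him v (c - f (e x) a * fderiv ℂ (fun z => (f z a)⁻¹) (e x) v) ?_
    have h3 := congrArg (fun w => f (e x) a • w) hv
    simp only [smul_add, smul_smul, mul_inv_cancel₀ h0, one_smul] at h3
    rw [sub_smul, eq_sub_iff_add_eq, h3, mul_left_comm, mul_inv_cancel₀ h0, mul_one]

theorem imm_of_emb {φ : X → PN N} (h : IsProjEmb n φ) : IsProjectiveImmersion (Cm n) φ :=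
  imm_of_lift fun x => by
    obtain ⟨a, ha⟩ := Function.ne_iff.1 (φ x).rep_nonzero
    exact ⟨_, _, ha, lift_emb h a⟩

theorem holP_of_imm [IsManifold 𝓘(ℂ, Cm n) ω X] {Φ : X → PN N}
    (h : IsProjectiveImmersion (Cm n) Φ) : HolP n Φ := fun x => by
  obtain ⟨W, s, hx, L⟩ := exists_isLift h x
  refine ⟨s, fun e he => (L.holo x hx e he).analyticAt, ?_⟩
  filter_upwards [L.isOpen.mem_nhds hx] with y hy using ⟨L.ne y hy, L.eq y hy⟩

/-- two embeddings of the same compact manifold have isomorphic images -/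
theorem isIso_range (map : MAP) {M : ℕ} [T2Space X] [CompactSpace X] [ConnectedSpace X]
    [IsManifold 𝓘(ℂ, Cm n) ω X] {Φ : X → PN N} {Ψ : X → PN M} (iΦ : Function.Injective Φ)
    (hΦ : IsProjectiveImmersion (Cm n) Φ) (iΨ : Function.Injective Ψ)
    (hΨ : IsProjectiveImmersion (Cm n) Ψ) :
    ∃ f, IsIso (Set.range Φ) (Set.range Ψ) f ∧ ∀ x, f (Φ x) = Ψ x := by
  obtain ⟨f, hf, e⟩ := map n N M X Φ Ψ iΦ hΦ (holP_of_imm hΨ)
  obtain ⟨g, hg, e'⟩ := map n M N X Ψ Φ iΨ hΨ (holP_of_imm hΦ)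
  refine ⟨f, ⟨hf, ?_, g, hg, ?_, ?_, ?_⟩, e⟩ <;> rintro _ ⟨x, rfl⟩
  · exact ⟨x, (e x).symm⟩
  · exact ⟨x, (e' x).symm⟩
  · rw [e, e']
  · rw [e', e]

end Vale.Agent.P280I14

namespace Vale.Agent.P280A

open Vale.Agent.P280I14

theorem iso (map : MAP) : ISO := by
  intro n N Z X _ _ _ _ _ _ Φ ⟨iΦ, hΦ, hZ⟩ ⟨M, G, P, φ, v, hG, hP, hφ, hv, hst, hor⟩
  cases M with
  | zero => exact absurd (Subsingleton.elim _ _) hv
  | succ M =>
    obtain ⟨f, hf, -⟩ := isIso_range map iΦ hΦ hφ.inj (imm_of_emb hφ)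
    obtain ⟨u, hu⟩ := Projectivization.exists_smul_eq_mk_rep ℂ v hv
    rw [Units.smul_def] at hu
    refine ⟨M, G, P, Projectivization.mk ℂ v hv, f, hG, hP, fun g => ?_, ?_⟩
    · rw [hst, ← hu]
      refine and_congr_right fun _ => exists_congr fun c => ?_
      rw [mulVec_smul, smul_comm c, smul_right_inj u.ne_zero]
    · have : {y : PN M | ∃ g ∈ G, ∃ c : ℂ,
          y.rep = c • (g.1 *ᵥ (Projectivization.mk ℂ v hv).rep)} = Set.range φ := by
        ext y
        have h1 := hor y.rep y.rep_nonzero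
        rw [y.mk_rep] at h1
        rw [h1, Set.mem_ofPred_eq, ← hu]
        refine exists_congr fun g => and_congr_right fun _ => ⟨fun ⟨c, hc⟩ => ⟨c * u, ?_⟩,
          fun ⟨c, hc⟩ => ⟨c * (u : ℂ)⁻¹, ?_⟩⟩
        · rw [hc, mulVec_smul, smul_smul]
        · rw [hc, mulVec_smul, smul_smul, mul_assoc, inv_mul_cancel₀ u.ne_zero, mul_one]
      rw [this, ← hZ]
      exact hf

end Vale.Agent.P280A
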